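import Mathlib.Data.ZMod.Basic
import Mathlib.Algebra.Polynomial.Roots
import Mathlib.Algebra.Field.ZMod
import Mathlib.Tactic

/-!
# Row COUNT: residues modulo `p ^ j` which reduce to nonzero k-th powers
-/

set_option autoImplicit false

namespace Vale.Agent.P042.H817

open Finset

theorem card_powers {p k : ℕ} [Fact p.Prime] (hk : 1 ≤ k) :
    p - 1 ≤ k * ((univ.filter (fun w : ZMod p => w ≠ 0 ∧ ∃ n : ZMod p, w = n ^ k)).card) := by
  classical
  have h1 : (univ.filter (fun n : ZMod p => n ≠ 0)).card = p - 1 := by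
    rw [filter_ne' univ (0 : ZMod p), card_erase_of_mem (mem_univ _), card_univ, ZMod.card]
  rw [← h1]
  refine card_le_mul_card_image_of_maps_to (f := fun n : ZMod p => n ^ k) ?_ k ?_
  · intro n hn
    simp only [mem_filter, mem_univ, true_and] at hn ⊢
    exact ⟨pow_ne_zero k hn, n, rfl⟩
  · intro w _
    have h2 : ((univ.filter (fun n : ZMod p => n ≠ 0)).filter (fun n => n ^ k = w)) ⊆
        (Polynomial.nthRoots k w).toFinset := by
      intro n hn
      simp only [mem_filter, mem_univ, true_and] at hn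
      rw [Multiset.mem_toFinset, Polynomial.mem_nthRoots hk]
      exact hn.2
    exact (card_le_card h2).trans ((Multiset.toFinset_card_le _).trans
      (Polynomial.card_nthRoots k w))

theorem count_lifts {p k j : ℕ} (hp : p.Prime) (hk : 1 ≤ k) (hj : 1 ≤ j) :
    ∃ T : Finset (ZMod (p ^ j)), (0 : ZMod (p ^ j)) ∉ T ∧
      (∀ z : ℤ, (z : ZMod (p ^ j)) ∈ T → (z : ZMod p) ≠ 0 ∧ ∃ n : ZMod p, (z : ZMod p) = n ^ k) ∧
      p ^ (j - 1) * (p - 1) ≤ k * T.card := by
  classical
  have : Fact p.Prime := ⟨hp⟩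
  have : NeZero (p ^ j) := ⟨pow_ne_zero j hp.ne_zero⟩
  have hdvd : p ∣ p ^ j := dvd_pow_self p (by omega)
  set D : Finset (ZMod p) := univ.filter (fun w : ZMod p => w ≠ 0 ∧ ∃ n : ZMod p, w = n ^ k)
    with hD
  set f : ZMod (p ^ j) →+* ZMod p := ZMod.castHom hdvd (ZMod p) with hf
  set T : Finset (ZMod (p ^ j)) := univ.filter (fun x => f x ∈ D) with hT
  have hjj : p * p ^ (j - 1) = p ^ j := by
    rw [← pow_succ']
    congr 1
    omega
  refine ⟨T, ?_, ?_, ?_⟩
  · intro h
    rw [hT, mem_filter, map_zero, hD, mem_filter] at h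
    exact h.2.2.1 rfl
  · intro z hz
    rw [hT, mem_filter, map_intCast, hD, mem_filter] at hz
    exact hz.2.2
  · have h1 : D.card * p ^ (j - 1) ≤ T.card := by
      have h2 : (D ×ˢ range (p ^ (j - 1))).card = D.card * p ^ (j - 1) := by
        rw [card_product, card_range]
      rw [← h2]
      have hlt : ∀ x ∈ D ×ˢ range (p ^ (j - 1)), x.1.val + p * x.2 < p ^ j := by
        intro x hx
        have h3 := mem_range.1 (mem_product.1 hx).2
        have h4 := ZMod.val_lt x.1
        rw [← hjj]
        have h5 : p * (x.2 + 1) ≤ p * p ^ (j - 1) := Nat.mul_le_mul_left p h3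
        rw [mul_add, mul_one] at h5
        omega
      refine card_le_card_of_injOn
        (fun x : ZMod p × ℕ => ((x.1.val + p * x.2 : ℕ) : ZMod (p ^ j))) ?_ ?_
      · intro x hx
        have hx' : x ∈ D ×ˢ range (p ^ (j - 1)) := hx
        have h3 := (mem_product.1 hx').1
        rw [mem_coe, hT, mem_filter, map_natCast]
        refine ⟨mem_univ _, ?_⟩
        push_cast
        rw [ZMod.natCast_zmod_val, ZMod.natCast_self, zero_mul, add_zero]
        exact h3
      · intro x hx y hy hxy
        have hx' : x ∈ D ×ˢ range (p ^ (j - 1)) := hx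
        have hy' : y ∈ D ×ˢ range (p ^ (j - 1)) := hy
        have h3 : x.1.val + p * x.2 = y.1.val + p * y.2 := by
          have h4 := (ZMod.natCast_eq_natCast_iff' _ _ _).1 hxy
          rwa [Nat.mod_eq_of_lt (hlt x hx'), Nat.mod_eq_of_lt (hlt y hy')] at h4
        have hx1 := ZMod.val_lt x.1
        have hy1 := ZMod.val_lt y.1
        have h4 : x.1.val = y.1.val := by
          have h5 := congrArg (fun t => t % p) h3
          simp only [Nat.add_mul_mod_self_left, Nat.mod_eq_of_lt hx1, Nat.mod_eq_of_lt hy1] at h5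
          exact h5
        have h5 : x.2 = y.2 := by
          rw [h4] at h3
          exact Nat.eq_of_mul_eq_mul_left hp.pos (Nat.add_left_cancel h3)
        exact Prod.ext (ZMod.val_injective p h4) h5
    have h6 : p - 1 ≤ k * D.card := card_powers hk
    calc p ^ (j - 1) * (p - 1) ≤ p ^ (j - 1) * (k * D.card) := Nat.mul_le_mul_left _ h6
      _ = k * (D.card * p ^ (j - 1)) := by ring
      _ ≤ k * T.card := Nat.mul_le_mul_left _ h1

end Vale.Agent.P042.H817
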